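import Mathlib

/-! Definitions for torus packets of totally real orders (problem P007).

Lattices are written in column vectors, so the space is `SL_n(ℝ) ⧸ SL_n(ℤ)` with the left action;
the coset `g SL_n(ℤ)` is the lattice `g ℤ^n`. -/

namespace Vale.Agent.P007

open Matrix MeasureTheory

/-- `SL_n(ℤ)` inside `SL_n(ℝ)`. -/
def latticeStab (n : ℕ) : Subgroup (SpecialLinearGroup (Fin n) ℝ) :=
  (SpecialLinearGroup.map (n := Fin n) (Int.castRingHom ℝ)).range

/-- The space of covolume one lattices in `ℝ^n`. -/
abbrev LatticeSpace (n : ℕ) : Type :=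
  SpecialLinearGroup (Fin n) ℝ ⧸ latticeStab n

/-- The lattice `g ℤ^n` attached to `g`. -/
def latticeOf {n : ℕ} (g : SpecialLinearGroup (Fin n) ℝ) : Set (Fin n → ℝ) :=
  {v | ∃ z : Fin n → ℤ, v = (g : Matrix (Fin n) (Fin n) ℝ) *ᵥ (fun i => (z i : ℝ))}

variable {K : Type} [Field K]

/-- The index `[𝓞_K : O]` (zero if infinite). -/
noncomputable def orderIndex (O : Subring K) : ℕ :=
  O.toAddSubgroup.relIndex (integralClosure ℤ K).toSubring.toAddSubgroup

/-- An order: a subring of algebraic integers of finite index in `𝓞_K`. -/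
def IsOrder (O : Subring K) : Prop :=
  (∀ x ∈ O, IsIntegral ℤ x) ∧ orderIndex O ≠ 0

/-- `|Disc O| = |Disc K| [𝓞_K : O]^2`. -/
noncomputable def absDisc [NumberField K] (O : Subring K) : ℕ :=
  (NumberField.discr K).natAbs * orderIndex O ^ 2

/-- A proper invertible fractional `O`-ideal in `K`. -/
def IsPacketIdeal (O : Subring K) (I : Submodule O K) : Prop :=
  I.FG ∧ I ≠ ⊥ ∧ (∀ α : K, (∀ x ∈ I, α * x ∈ I) ↔ α ∈ O) ∧ ∃ J : Submodule O K, I * J = 1

/-- The union of the compact orbits in the packet of `(O, σ)`: all covolume one lattices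
`c σ(I) w a` with `I` a proper invertible ideal, `c > 0` the normalising scalar,
`w` a diagonal sign matrix and `a = exp u` in the diagonal group. -/
def packetSet {n : ℕ} (O : Subring K) (σ : Fin n ≃ (K →+* ℝ)) : Set (LatticeSpace n) :=
  {x | ∃ I : Submodule O K, IsPacketIdeal O I ∧ ∃ (c : ℝ) (w u : Fin n → ℝ)
      (g : SpecialLinearGroup (Fin n) ℝ),
    0 < c ∧ (∀ j, w j = 1 ∨ w j = -1) ∧ ∑ j, u j = 0 ∧
    x = (g : LatticeSpace n) ∧
    latticeOf g = {v | ∃ y ∈ I, ∀ j, v j = c * (w j * Real.exp (u j)) * σ j y}}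

/-- A single test function separates all measures carried by `S` from the invariant probability
measure: it is continuous, compactly supported, nonnegative, positive somewhere, zero on `S`, has integral zero against every
probability measure supported on `S`, and positive integral against every invariant probability
measure. In particular the nonempty open set where it is positive misses `S`. -/
def AvoidsEquidistribution {n : ℕ} (S : Set (LatticeSpace n)) : Prop :=
  ∃ f : LatticeSpace n → ℝ, Continuous f ∧ HasCompactSupport f ∧ (∀ x, 0 ≤ f x) ∧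
    (∃ x, 0 < f x) ∧ (∀ x ∈ S, f x = 0) ∧
    ∀ [MeasurableSpace (LatticeSpace n)] [BorelSpace (LatticeSpace n)],
      (∀ μ : Measure (LatticeSpace n), IsProbabilityMeasure μ → μ Sᶜ = 0 → ∫ x, f x ∂μ = 0) ∧
      (∀ m : Measure (LatticeSpace n), IsProbabilityMeasure m →
        SMulInvariantMeasure (SpecialLinearGroup (Fin n) ℝ) (LatticeSpace n) m →
          0 < ∫ x, f x ∂m)

/-- The union of all packets of degree `n` fields whose order contains a root of `P`. -/
def packetsWithRoot (n : ℕ) (P : Polynomial ℤ) : Set (LatticeSpace n) :=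
  {x | ∃ (K : Type) (_ : Field K) (_ : NumberField K) (_ : NumberField.IsTotallyReal K)
      (σ : Fin n ≃ (K →+* ℝ)) (O : Subring K),
    IsOrder O ∧ (∃ θ ∈ O, Polynomial.aeval θ P = 0) ∧ x ∈ packetSet O σ}

end Vale.Agent.P007
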