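import Mathlib

/-! Totally real fields of every degree with subfields of every dividing degree. -/

namespace Vale.Agent.P007

open IntermediateField Polynomial

lemma exists_field_with_subfield {n a : ℕ} (hn : 0 < n) (ha : a ∣ n) :
    ∃ (K : Type) (_ : Field K) (_ : NumberField K) (_ : NumberField.IsTotallyReal K) (θ : K),
      Module.finrank ℚ K = n ∧ IsIntegral ℤ θ ∧ (minpoly ℚ θ).natDegree = a := by
  obtain ⟨p, -, hp, hmod⟩ := Nat.forall_exists_prime_gt_and_modEq 2 (q := 2 * n) (a := 1)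
    (by omega) (Nat.coprime_one_left _)
  have hdvd : 2 * n ∣ p - 1 := (Nat.modEq_iff_dvd' hp.one_lt.le).1 hmod.symm
  haveI : Fact p.Prime := ⟨hp⟩
  haveI : NeZero p := ⟨hp.ne_zero⟩
  obtain ⟨L, _, _, _⟩ : ∃ (L : Type) (_ : Field L) (_ : CharZero L),
      IsCyclotomicExtension {p} ℚ L := by
    haveI : NeZero ((p : ℕ) : ℚ) := ⟨by exact_mod_cast hp.ne_zero⟩
    refine ⟨CyclotomicField p ℚ, inferInstance, inferInstance, ?_⟩
    convert! CyclotomicField.isCyclotomicExtension p ℚ
  haveI : FiniteDimensional ℚ L := IsCyclotomicExtension.finiteDimensional {p} ℚ L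
  have hirr : Irreducible (cyclotomic p ℚ) := cyclotomic.irreducible_rat hp.pos
  haveI : IsGalois ℚ L := IsCyclotomicExtension.isGalois {p} ℚ L
  haveI : NumberField L := IsCyclotomicExtension.numberField {p} ℚ L
  let e : Gal(L/ℚ) ≃* (ZMod p)ˣ := IsCyclotomicExtension.autEquivPow L hirr
  haveI : IsCyclic Gal(L/ℚ) := isCyclic_of_surjective e.symm e.symm.surjective
  have hcard : Nat.card Gal(L/ℚ) = p - 1 := by
    rw [Nat.card_congr e.toEquiv, Nat.card_eq_fintype_card, ZMod.card_units p]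
  have hp1 : p - 1 ≠ 0 := by have := hp.two_le; omega
  obtain ⟨g, hg⟩ := IsCyclic.exists_generator (α := Gal(L/ℚ))
  have hord : orderOf g = p - 1 := by
    rw [orderOf_eq_card_of_forall_mem_zpowers hg, hcard]
  have hfin : ∀ d, d ∣ p - 1 →
      Module.finrank ℚ (fixedField (Subgroup.zpowers (g ^ d))) = d := by
    intro d hd
    have hd0 : d ≠ 0 := fun h => hp1 (by simpa [h] using hd)
    have h1 : Nat.card (Subgroup.zpowers (g ^ d)) = (p - 1) / d := by
      rw [Nat.card_zpowers, orderOf_pow' g hd0, hord, Nat.gcd_eq_right hd]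
    have h2 := Module.finrank_mul_finrank ℚ (fixedField (Subgroup.zpowers (g ^ d))) L
    rw [finrank_fixedField_eq_card, h1, ← IsGalois.card_aut_eq_finrank ℚ L, hcard] at h2
    have h3 : 0 < (p - 1) / d := Nat.div_pos (Nat.le_of_dvd (by omega) hd) (by omega)
    exact Nat.eq_of_mul_eq_mul_right h3 (h2.trans (Nat.mul_div_cancel' hd).symm)
  have hn' : n ∣ p - 1 := (Dvd.intro_left 2 rfl).trans hdvd
  let K := fixedField (Subgroup.zpowers (g ^ n))
  let F := fixedField (Subgroup.zpowers (g ^ a))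
  have hFK : F ≤ K := by
    refine fixedField_antitone ?_
    obtain ⟨b, rfl⟩ := ha
    rw [pow_mul]
    exact Subgroup.zpowers_le.2 (Subgroup.npow_mem_zpowers _ b)
  obtain ⟨k, hk⟩ : ∃ k : ℕ, g ^ k = e.symm (-1) := by
    obtain ⟨k, hk⟩ := (mem_powers_iff_mem_zpowers (x := g)).2 (hg (e.symm (-1)))
    exact ⟨k, hk⟩
  have hconj : e.symm (-1) ∈ Subgroup.zpowers (g ^ n) := by
    have h2k : p - 1 ∣ 2 * k := by
      rw [← hord, orderOf_dvd_iff_pow_eq_one, mul_comm, pow_mul, hk, sq, ← map_mul,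
        neg_one_mul, neg_neg, map_one]
    obtain ⟨l, rfl⟩ : n ∣ k := Nat.dvd_of_mul_dvd_mul_left (by norm_num : 0 < 2) (hdvd.trans h2k)
    rw [← hk, pow_mul]
    exact Subgroup.npow_mem_zpowers _ l
  have hreal : ∀ (φ : L →+* ℂ) (x : L), x ∈ K → (starRingEnd ℂ) (φ x) = φ x := by
    intro φ x hx
    have hζ := IsCyclotomicExtension.zeta_spec p ℚ L
    set ζ := IsCyclotomicExtension.zeta p ℚ L with hζdef
    set τ := e.symm (-1) with hτ
    have hτζ : τ ζ * ζ = 1 := by
      have hspec := hζ.autToPow_spec ℚ τ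
      have he : hζ.autToPow ℚ τ = -1 := by
        change e τ = -1
        rw [hτ, MulEquiv.apply_symm_apply]
      rw [he] at hspec
      rw [← hspec, ← pow_succ]
      refine (hζ.pow_eq_one_iff_dvd _).2 ?_
      exact (ZMod.natCast_eq_zero_iff _ _).1 (by simp)
    let φ' : L →ₐ[ℚ] ℂ := φ.toRatAlgHom
    let ψ : L →ₐ[ℚ] ℂ := ((starRingEnd ℂ).comp φ).toRatAlgHom
    have hext : φ'.comp τ.toAlgHom = ψ := by
      refine (hζ.powerBasis ℚ).algHom_ext ?_
      rw [IsPrimitiveRoot.powerBasis_gen]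
      change φ (τ ζ) = (starRingEnd ℂ) (φ ζ)
      have hnorm : ‖φ ζ‖ = 1 :=
        Complex.norm_eq_one_of_pow_eq_one (by rw [← map_pow, hζ.pow_eq_one, map_one]) hp.ne_zero
      rw [← Complex.inv_eq_conj hnorm]
      refine eq_inv_of_mul_eq_one_left ?_
      rw [← map_mul, hτζ, map_one]
    have := AlgHom.congr_fun hext x
    have hfix : τ x = x := (mem_fixedField_iff _ x).1 hx τ hconj
    simpa [φ', ψ, hfix] using this.symm
  haveI : NumberField.IsTotallyReal K := ⟨fun w => by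
    rw [← NumberField.InfinitePlace.mk_embedding w, NumberField.InfinitePlace.isReal_mk_iff]
    rw [NumberField.ComplexEmbedding.isReal_iff]
    ext x
    letI : Algebra K ℂ := w.embedding.toAlgebra
    let φ : L →+* ℂ := (IsAlgClosed.lift (R := K) : L →ₐ[K] ℂ).toRingHom
    have hφ : φ x = w.embedding x :=
      (IsAlgClosed.lift (R := K) : L →ₐ[K] ℂ).commutes x
    rw [NumberField.ComplexEmbedding.conjugate_coe_eq, ← hφ]
    exact hreal φ x x.2⟩
  obtain ⟨α, hα⟩ := Field.exists_primitive_element ℚ F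
  obtain ⟨⟨m, hm⟩, hmint⟩ :=
    IsIntegral.exists_multiple_integral_of_isLocalization (nonZeroDivisors ℤ) α
      (Algebra.IsIntegral.isIntegral (R := ℚ) α)
  refine ⟨K, inferInstance, inferInstance, inferInstance,
    inclusion hFK ((⟨m, hm⟩ : nonZeroDivisors ℤ) • α), hfin n hn', ?_, ?_⟩
  · exact map_isIntegral_int (inclusion hFK).toRingHom hmint
  · change (minpoly ℚ ((inclusion hFK) _)).natDegree = a
    erw [minpoly.algHom_eq _ (inclusion_injective hFK)]
    rw [(Field.primitive_element_iff_minpoly_natDegree_eq ℚ _).1, hfin a (ha.trans hn')]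
    refine le_antisymm le_top (hα ▸ adjoin_simple_le_iff.2 ?_)
    have hm0 : ((m : ℚ)) ≠ 0 := Int.cast_ne_zero.2 (nonZeroDivisors.ne_zero hm)
    have : α = (m : ℚ)⁻¹ • ((⟨m, hm⟩ : nonZeroDivisors ℤ) • α) := by
      rw [Submonoid.mk_smul, ← Int.cast_smul_eq_zsmul ℚ m α, smul_smul, inv_mul_cancel₀ hm0,
        one_smul]
    exact (congrArg
      (· ∈ adjoin ℚ ({(⟨m, hm⟩ : nonZeroDivisors ℤ) • α} : Set F)) this).mpr
        (IntermediateField.smul_mem _
          (mem_adjoin_simple_self ℚ ((⟨m, hm⟩ : nonZeroDivisors ℤ) • α)))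

end Vale.Agent.P007
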