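import Mathlib
import Vale.Agent.P007.Defs

namespace Vale.Agent.P007

open Matrix MeasureTheory

variable {n : ℕ}

/-- `g⁻¹ diag(v) g` is integral. -/
def Stab (v : Fin n → ℝ) (g : SpecialLinearGroup (Fin n) ℝ) : Prop :=
  ∃ B : Matrix (Fin n) (Fin n) ℤ,
    (g⁻¹ : SpecialLinearGroup (Fin n) ℝ).1 * diagonal v * g.1 = B.map (Int.castRingHom ℝ)

lemma isClosed_stab (v : Fin n → ℝ) : IsClosed {g | Stab v g} := by
  have h : {g : SpecialLinearGroup (Fin n) ℝ | Stab v g} =
      (fun g : SpecialLinearGroup (Fin n) ℝ => (g⁻¹).1 * diagonal v * g.1) ⁻¹'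
        {M | ∀ i j, M i j ∈ Set.range (Int.cast : ℤ → ℝ)} := by
    ext g
    constructor
    · rintro ⟨B, hB⟩ i j
      exact ⟨B i j, ((congrFun (congrFun hB i) j).trans rfl).symm⟩
    · intro h
      choose B hB using h
      exact ⟨Matrix.of B, by ext i j; exact (hB i j).symm⟩
  rw [h]
  have hv : Continuous fun g : SpecialLinearGroup (Fin n) ℝ =>
      (g : Matrix (Fin n) (Fin n) ℝ) := continuous_subtype_val
  refine IsClosed.preimage (((hv.comp continuous_inv).mul continuous_const).mul hv) ?_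
  simp only [Set.setOf_forall]
  exact isClosed_iInter fun i => isClosed_iInter fun j =>
    Int.isClosedEmbedding_coe_real.isClosed_range.preimage (continuous_id.matrix_elem i j)

lemma stab_mul (v : Fin n → ℝ) (g γ : SpecialLinearGroup (Fin n) ℝ) (hγ : γ ∈ latticeStab n)
    (h : Stab v g) : Stab v (g * γ) := by
  obtain ⟨c, rfl⟩ := hγ
  obtain ⟨B, hB⟩ := h
  refine ⟨(c⁻¹).1 * B * c.1, ?_⟩
  have e1 : ((g * SpecialLinearGroup.map (Int.castRingHom ℝ) c)⁻¹ :
      SpecialLinearGroup (Fin n) ℝ).1 = (c⁻¹).1.map (Int.castRingHom ℝ) * (g⁻¹).1 := by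
    rw [_root_.mul_inv_rev, ← map_inv]
    rfl
  have e2 : (g * SpecialLinearGroup.map (Int.castRingHom ℝ) c).1 =
      g.1 * c.1.map (Int.castRingHom ℝ) := rfl
  rw [Matrix.map_mul, Matrix.map_mul, e1, e2, ← hB]
  simp only [Matrix.mul_assoc]

/-- The set of lattices stable under `diag(v)`. -/
def stabSet (v : Fin n → ℝ) : Set (LatticeSpace n) :=
  QuotientGroup.mk '' {g | Stab v g}

lemma isClosed_stabSet (v : Fin n → ℝ) : IsClosed (stabSet v) := by
  rw [← (QuotientGroup.isQuotientMap_mk (latticeStab n)).isClosed_preimage]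
  convert isClosed_stab v
  ext g
  constructor
  · rintro ⟨g', hg', he⟩
    obtain ⟨γ, hγ, rfl⟩ : ∃ γ ∈ latticeStab n, g' * γ = g :=
      ⟨g'⁻¹ * g, QuotientGroup.eq.mp he, by group⟩
    exact stab_mul v g' γ hγ hg'
  · intro h
    exact ⟨g, h, rfl⟩

lemma stab_of_latticeOf (v : Fin n → ℝ) (g : SpecialLinearGroup (Fin n) ℝ)
    (h : ∀ x ∈ latticeOf g, (fun j => v j * x j) ∈ latticeOf g) : Stab v g := by
  have hcol : ∀ k, ∃ z : Fin n → ℤ,
      (fun j => v j * g.1 j k) = g.1 *ᵥ (fun i => (z i : ℝ)) := by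
    intro k
    refine h (fun j => g.1 j k) ⟨Pi.single k 1, ?_⟩
    ext j
    simp [Matrix.mulVec, dotProduct, Pi.single_apply, apply_ite (Int.cast : ℤ → ℝ)]
  choose z hz using hcol
  refine ⟨Matrix.of fun i k => z k i, ?_⟩
  have hDg : diagonal v * g.1 = g.1 * (Matrix.of fun i k => z k i).map (Int.castRingHom ℝ) := by
    ext j k
    simpa [Matrix.mul_apply, Matrix.mulVec, dotProduct, Matrix.diagonal_apply] using
      congrFun (hz k) j
  have hinv : (g⁻¹).1 * g.1 = 1 := congrArg Subtype.val (inv_mul_cancel g)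
  rw [Matrix.mul_assoc, hDg, ← Matrix.mul_assoc, hinv, one_mul]

lemma packetSet_subset {K : Type} [Field K] (O : Subring K) (σ : Fin n ≃ (K →+* ℝ))
    {θ : K} (hθ : θ ∈ O) :
    packetSet O σ ⊆ stabSet (fun j => σ j θ) := by
  rintro x ⟨I, -, c, w, u, g, -, -, -, rfl, hg⟩
  refine ⟨g, stab_of_latticeOf _ _ ?_, rfl⟩
  intro x hx
  rw [hg] at hx ⊢
  obtain ⟨y, hy, hxy⟩ := hx
  refine ⟨θ * y, I.smul_mem ⟨θ, hθ⟩ hy, fun j => ?_⟩
  simp only [hxy, map_mul]
  ring

/-- For finitely many nonconstant vectors some lattice is stable under none of them. -/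
lemma exists_notMem_stabSet {V : Set (Fin n → ℝ)} (hV : V.Countable)
    (hne : ∀ v ∈ V, ∃ i j, v i ≠ v j) : ∃ x : LatticeSpace n, ∀ v ∈ V, x ∉ stabSet v := by
  rcases Nat.eq_zero_or_pos n with rfl | hn
  · exact ⟨((1 : SpecialLinearGroup (Fin 0) ℝ) : LatticeSpace 0), fun v hv => (hne v hv).choose.elim0⟩
  let o : Fin n := ⟨0, hn⟩
  let E : Matrix (Fin n) (Fin n) ℝ := Matrix.of fun i j => if i = o ∧ j ≠ o then 1 else 0
  have hE : E * E = 0 := by
    ext i j
    simp only [Matrix.mul_apply, Matrix.zero_apply]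
    refine Finset.sum_eq_zero fun k _ => ?_
    by_cases hk : k = o
    · simp [E, hk]
    · simp [E, hk]
  let bad : Set ℝ := ⋃ v ∈ V, ⋃ j : Fin n, Set.range fun k : ℤ => (k : ℝ) / (v o - v j)
  have hbad : bad.Countable :=
    hV.biUnion fun v _ => Set.countable_iUnion fun j => Set.countable_range _
  obtain ⟨t, ht⟩ : ∃ t : ℝ, t ∉ bad := by
    by_contra h
    simp only [not_exists, not_not] at h
    exact Cardinal.not_countable_real (hbad.mono fun x _ => h x)
  have hdet : (1 + t • E).det = 1 := by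
    rw [Matrix.det_of_isUpperTriangular]
    · refine Finset.prod_eq_one fun i _ => ?_
      simp [E]
    · intro i j hij
      simp only [id] at hij
      have : ¬(i = o ∧ j ≠ o) := by
        rintro ⟨rfl, -⟩
        exact absurd hij (not_lt.2 (Nat.zero_le _))
      simp [E, this, hij.ne']
  let g : SpecialLinearGroup (Fin n) ℝ := ⟨1 + t • E, hdet⟩
  have hinv : (g⁻¹).1 = 1 - t • E := by
    have h1 : g.1 * (1 - t • E) = 1 := by
      simp [g, mul_sub, add_mul, smul_mul_assoc, mul_smul_comm, hE]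
    have h2 : (g⁻¹).1 * g.1 = 1 := congrArg Subtype.val (inv_mul_cancel g)
    calc (g⁻¹).1 = (g⁻¹).1 * (g.1 * (1 - t • E)) := by rw [h1, mul_one]
      _ = (g⁻¹).1 * g.1 * (1 - t • E) := (Matrix.mul_assoc _ _ _).symm
      _ = _ := by rw [h2, one_mul]
  refine ⟨(g : LatticeSpace n), fun v hv hmem => ?_⟩
  have hg : Stab v g := by
    obtain ⟨g', hg', he⟩ := hmem
    simpa using stab_mul v g' (g'⁻¹ * g) (QuotientGroup.eq.mp he) hg'
  obtain ⟨B, hB⟩ := hg
  obtain ⟨j, hj⟩ : ∃ j, v o ≠ v j := by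
    obtain ⟨a, b, hab⟩ := hne v hv
    by_contra! h
    exact hab ((h a).symm.trans (h b))
  have hjo : j ≠ o := fun h => hj (by rw [h])
  have hval : t * (v o - v j) = (B o j : ℝ) := by
    have := congrFun (congrFun hB o) j
    rw [hinv] at this
    simp only [Matrix.map_apply, eq_intCast] at this
    rw [← this]
    have hDE : diagonal v * E = v o • E := by
      ext i k
      rw [Matrix.diagonal_mul, Matrix.smul_apply, smul_eq_mul]
      by_cases hi : i = o
      · rw [hi]
      · simp [E, hi]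
    have hEDE : E * diagonal v * E = 0 := by
      rw [Matrix.mul_assoc, hDE, mul_smul_comm, hE, smul_zero]
    have hexp : (1 - t • E) * diagonal v * g.1 =
        diagonal v + (t * v o) • E - t • (E * diagonal v) := by
      change (1 - t • E) * diagonal v * (1 + t • E) = _
      rw [sub_mul, sub_mul, one_mul, mul_add, mul_one, mul_smul_comm, hDE, smul_smul,
        mul_add, mul_one, smul_mul_assoc, smul_mul_assoc, mul_smul_comm, hEDE, smul_zero,
        smul_zero, add_zero]
    rw [hexp]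
    simp [E, hjo, hjo.symm, Matrix.mul_diagonal, mul_sub]
  exact ht (Set.mem_biUnion hv (Set.mem_iUnion.2 ⟨j, B o j, by
    simp only
    rw [← hval, mul_div_cancel_right₀ _ (sub_ne_zero.2 hj)]⟩))

instance isClosed_latticeStab : IsClosed (latticeStab n : Set (SpecialLinearGroup (Fin n) ℝ)) := by
  unfold latticeStab
  rw [MonoidHom.coe_range]
  exact (Int.isClosedEmbedding_coe_real.specialLinearGroup_map (n := Fin n)
    (f := Int.castRingHom ℝ)).isClosed_range

/-- An open nonempty set has positive invariant measure. -/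
lemma measure_open_pos [SecondCountableTopology (SpecialLinearGroup (Fin n) ℝ)]
    [MeasurableSpace (LatticeSpace n)] [BorelSpace (LatticeSpace n)]
    (m : Measure (LatticeSpace n)) [IsProbabilityMeasure m]
    [SMulInvariantMeasure (SpecialLinearGroup (Fin n) ℝ) (LatticeSpace n) m]
    {U : Set (LatticeSpace n)} (hU : IsOpen U) (hne : U.Nonempty) : 0 < m U := by
  obtain ⟨D, hDc, hDd⟩ := TopologicalSpace.exists_countable_dense (SpecialLinearGroup (Fin n) ℝ)
  have hcov : (⋃ d ∈ D, (fun x => d • x) ⁻¹' U) = Set.univ := by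
    refine Set.eq_univ_of_forall fun x => ?_
    obtain ⟨y, hy⟩ := hne
    obtain ⟨a, ha⟩ := MulAction.exists_smul_eq (SpecialLinearGroup (Fin n) ℝ) x y
    obtain ⟨d, hdU, hd⟩ := hDd.inter_open_nonempty
      ((fun a : SpecialLinearGroup (Fin n) ℝ => a • x) ⁻¹' U)
      (hU.preimage (continuous_id.smul continuous_const)) ⟨a, by simp [ha, hy]⟩
    exact Set.mem_biUnion hd hdU
  by_contra h
  have h0 : m U = 0 := le_antisymm (not_lt.1 h) bot_le
  have : m (⋃ d ∈ D, (fun x => d • x) ⁻¹' U) = 0 := by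
    rw [measure_biUnion_null_iff hDc]
    intro d _
    rw [SMulInvariantMeasure.measure_preimage_smul d hU.measurableSet]
    exact h0
  rw [hcov, measure_univ] at this
  exact one_ne_zero this

/-- A closed proper subset containing `S` gives a separating test function. -/
lemma avoids_of_closed {S Z : Set (LatticeSpace n)} (hS : S ⊆ Z) (hZ : IsClosed Z)
    {x₀ : LatticeSpace n} (hx₀ : x₀ ∉ Z) : AvoidsEquidistribution S := by
  haveI : LocallyCompactSpace (SpecialLinearGroup (Fin n) ℝ) := by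
    haveI : LocallyCompactSpace (Matrix (Fin n) (Fin n) ℝ) :=
      inferInstanceAs (LocallyCompactSpace (Fin n → Fin n → ℝ))
    exact SpecialLinearGroup.isClosedEmbedding_val.locallyCompactSpace
  haveI : SecondCountableTopology (Matrix (Fin n) (Fin n) ℝ) :=
    inferInstanceAs (SecondCountableTopology (Fin n → Fin n → ℝ))
  haveI : SecondCountableTopology (SpecialLinearGroup (Fin n) ℝ) :=
    SpecialLinearGroup.isClosedEmbedding_val.isEmbedding.secondCountableTopology
  obtain ⟨f, hf1, hf0, hfc, hf⟩ := exists_continuous_one_zero_of_isCompact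
    (isCompact_singleton (x := x₀)) hZ (Set.disjoint_singleton_left.2 hx₀)
  refine ⟨f, f.continuous, hfc, fun x => (hf x).1,
    ⟨x₀, by simp [hf1 (Set.mem_singleton x₀)]⟩, fun x hx => hf0 (hS hx), ?_⟩
  intro _ _
  constructor
  · intro μ _ hμ
    refine integral_eq_zero_of_ae ?_
    refine measure_mono_null ?_ hμ
    intro x hx hxS
    exact hx (hf0 (hS hxS))
  · intro m _ _
    rw [integral_pos_iff_support_of_nonneg (fun x => (hf x).1)
      (f.continuous.integrable_of_hasCompactSupport hfc)]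
    refine measure_open_pos m f.continuous.isOpen_support ⟨x₀, ?_⟩
    simp [Function.mem_support, hf1 (Set.mem_singleton x₀)]

/-- All packets of orders containing a root of a fixed nonlinear irreducible polynomial avoid
equidistribution. -/
lemma packetsWithRoot_avoids (P : Polynomial ℤ) (hmon : P.Monic)
    (hirr : Irreducible (P.map (algebraMap ℤ ℚ))) (hdeg : 2 ≤ P.natDegree) :
    AvoidsEquidistribution (packetsWithRoot n P) := by
  let V : Set (Fin n → ℝ) :=
    {v | (∀ j, v j ∈ P.rootSet ℝ) ∧ ∃ i j, v i ≠ v j}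
  have hVfin : V.Finite :=
    (Set.Finite.pi fun _ : Fin n => P.rootSet_finite ℝ).subset fun v hv => fun j _ => hv.1 j
  obtain ⟨x₀, hx₀⟩ := exists_notMem_stabSet hVfin.countable fun v hv => hv.2
  refine avoids_of_closed (Z := ⋃ v ∈ V, stabSet v) ?_
    (hVfin.isClosed_biUnion fun v _ => isClosed_stabSet v) (x₀ := x₀) (by simpa using hx₀)
  rintro x ⟨K, _, _, _, σ, O, -, ⟨θ, hθO, hθ⟩, hx⟩
  refine Set.mem_biUnion ⟨fun j => ?_, ?_⟩ (packetSet_subset O σ hθO hx)
  · rw [Polynomial.mem_rootSet]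
    refine ⟨hmon.ne_zero, ?_⟩
    have := Polynomial.aeval_algHom_apply (σ j).toIntAlgHom θ P
    simpa [hθ] using this
  · have hmin : minpoly ℚ θ = P.map (algebraMap ℤ ℚ) :=
      (minpoly.eq_of_irreducible_of_monic hirr
        (by rw [Polynomial.aeval_map_algebraMap, hθ]) (hmon.map _)).symm
    have hcard : 2 ≤ Fintype.card ((minpoly ℚ θ).rootSet ℂ) := by
      rw [Polynomial.card_rootSet_eq_natDegree (hmin ▸ hirr.separable) (IsAlgClosed.splits _),
        hmin, hmon.natDegree_map]
      exact hdeg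
    obtain ⟨⟨r, hr⟩, ⟨s, hs⟩, hrs⟩ := Fintype.one_lt_card_iff.1 hcard
    rw [← NumberField.Embeddings.range_eval_eq_rootSet_minpoly] at hr hs
    obtain ⟨φ, rfl⟩ := hr
    obtain ⟨ψ, rfl⟩ := hs
    have hreal : ∀ χ : K →+* ℂ, ∃ j, ((σ j θ : ℝ) : ℂ) = χ θ := fun χ =>
      ⟨σ.symm (NumberField.ComplexEmbedding.IsReal.embedding
        (NumberField.IsTotallyReal.complexEmbedding_isReal χ)), by simp⟩
    obtain ⟨i, hi⟩ := hreal φ
    obtain ⟨j, hj⟩ := hreal ψ
    refine ⟨i, j, fun h => hrs (Subtype.ext ?_)⟩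
    simp only at hi hj h ⊢
    rw [← hi, ← hj, h]

end Vale.Agent.P007
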