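import Mathlib
import Vale.Agent.P007.Defs

namespace Vale.Agent.P007

open Matrix

variable {K : Type} [Field K] [NumberField K]

/-- The orders `A + m 𝓞_K`. -/
def thickened (A : Subalgebra ℤ K) (hA : ∀ x ∈ A, IsIntegral ℤ x) (m : ℕ) : Subring K where
  carrier := {x | ∃ a ∈ A, ∃ y, IsIntegral ℤ y ∧ x = a + m * y}
  one_mem' := ⟨1, A.one_mem, 0, isIntegral_zero, by simp⟩
  zero_mem' := ⟨0, A.zero_mem, 0, isIntegral_zero, by simp⟩
  add_mem' := by
    rintro _ _ ⟨a, ha, y, hy, rfl⟩ ⟨b, hb, z, hz, rfl⟩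
    exact ⟨a + b, A.add_mem ha hb, y + z, hy.add hz, by ring⟩
  neg_mem' := by
    rintro _ ⟨a, ha, y, hy, rfl⟩
    exact ⟨-a, A.neg_mem ha, -y, hy.neg, by ring⟩
  mul_mem' := by
    rintro _ _ ⟨a, ha, y, hy, rfl⟩ ⟨b, hb, z, hz, rfl⟩
    refine ⟨a * b, A.mul_mem ha hb, a * z + y * b + (m : ℤ) • (y * z), ?_, ?_⟩
    · exact (((hA a ha).mul hz).add (hy.mul (hA b hb))).add
        ((hy.mul hz).smul (m : ℤ))
    · rw [zsmul_eq_mul]; push_cast; ring

lemma thickened_integral (A : Subalgebra ℤ K) (hA : ∀ x ∈ A, IsIntegral ℤ x) (m : ℕ) :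
    ∀ x ∈ thickened A hA m, IsIntegral ℤ x := by
  rintro _ ⟨a, ha, y, hy, rfl⟩
  refine (hA a ha).add ?_
  have := hy.smul (m : ℤ)
  rwa [zsmul_eq_mul, Int.cast_natCast] at this

lemma orderIndex_eq_index (O : Subring K) :
    orderIndex O = (O.toAddSubgroup.comap
      (algebraMap (NumberField.RingOfIntegers K) K).toAddMonoidHom).index := by
  rw [AddSubgroup.index_comap]
  unfold orderIndex
  congr 1
  ext x
  constructor
  · intro hx
    exact ⟨⟨x, hx⟩, rfl⟩
  · rintro ⟨y, rfl⟩
    exact y.2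

lemma thickened_index_ne_zero (A : Subalgebra ℤ K) (hA : ∀ x ∈ A, IsIntegral ℤ x) (m : ℕ)
    (hm : m ≠ 0) : orderIndex (thickened A hA m) ≠ 0 := by
  rw [orderIndex_eq_index]
  let H : AddSubgroup (NumberField.RingOfIntegers K) :=
    (Ideal.span {(m : NumberField.RingOfIntegers K)}).toAddSubgroup
  have hle : H ≤ (thickened A hA m).toAddSubgroup.comap
      (algebraMap (NumberField.RingOfIntegers K) K).toAddMonoidHom := by
    intro x hx
    obtain ⟨y, rfl⟩ := Ideal.mem_span_singleton'.1 hx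
    exact ⟨0, A.zero_mem, (y : K), y.2, by simp [mul_comm]⟩
  have hH : H.index ≠ 0 := by
    change (Ideal.span {(m : NumberField.RingOfIntegers K)}).toAddSubgroup.index ≠ 0
    have hne : (Ideal.span {(m : NumberField.RingOfIntegers K)}) ≠ ⊥ := by simp [hm]
    have hfin := Ideal.finiteQuotientOfFreeOfNeBot _ hne
    exact @AddSubgroup.index_ne_zero_of_finite _ _ _ hfin
  exact fun h => hH (by
    have := AddSubgroup.index_dvd_of_le hle
    rwa [h, zero_dvd_iff] at this)

lemma le_thickened_index (A : Subalgebra ℤ K) (hA : ∀ x ∈ A, IsIntegral ℤ x)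
    (f : K →ₗ[ℚ] ℚ) (hf : f ≠ 0) (hfA : ∀ x ∈ A, f x = 0) (m : ℕ) (hm : m ≠ 0) :
    m ≤ orderIndex (thickened A hA m) := by
  let b := NumberField.RingOfIntegers.basis K
  obtain ⟨⟨d, hd⟩, hden⟩ := IsLocalization.exist_integer_multiples (S := ℚ) (nonZeroDivisors ℤ)
    Finset.univ fun i => f (b i : K)
  have hint : ∀ x : NumberField.RingOfIntegers K, ∃ z : ℤ, (z : ℚ) = (d : ℚ) * f (x : K) := by
    intro x
    choose z hz using fun i => hden i (Finset.mem_univ i)
    refine ⟨∑ i, b.repr x i * z i, ?_⟩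
    conv_rhs => rw [← b.sum_repr x]
    simp only [map_sum, NumberField.RingOfIntegers.coe_eq_algebraMap, zsmul_eq_mul, map_mul,
      map_intCast, Finset.mul_sum, Int.cast_sum, Int.cast_mul]
    refine Finset.sum_congr rfl fun i _ => ?_
    rw [← zsmul_eq_mul ((b i : _) : K), map_zsmul]
    have := hz i
    simp only [algebraMap_int_eq, eq_intCast, zsmul_eq_mul] at this ⊢
    rw [this]
    ring
  choose ψ₀ hψ₀ using hint
  let ψ : NumberField.RingOfIntegers K →+ ℤ := AddMonoidHom.mk' ψ₀ fun x y => by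
    refine Int.cast_injective (α := ℚ) ?_
    push_cast
    rw [hψ₀, hψ₀, hψ₀, show ((x + y : _) : K) = (x : K) + (y : K) from rfl, map_add]
    ring
  obtain ⟨g, hg⟩ := Int.subgroup_cyclic ψ.range
  have hd0 : (d : ℚ) ≠ 0 := Int.cast_ne_zero.2 (nonZeroDivisors.ne_zero hd)
  have hg0 : g ≠ 0 := by
    rintro rfl
    refine hf ((NumberField.integralBasis K).ext fun i => ?_)
    rw [NumberField.integralBasis_apply, LinearMap.zero_apply]
    have : ψ (b i) ∈ ψ.range := ⟨b i, rfl⟩
    rw [hg, AddSubgroup.closure_singleton_zero, AddSubgroup.mem_bot] at this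
    have h2 := hψ₀ (b i)
    change ψ₀ (b i) = 0 at this
    rw [this, Int.cast_zero] at h2
    simpa [hd0, b] using h2.symm
  let A' : AddSubgroup (NumberField.RingOfIntegers K) :=
    (AddSubgroup.zmultiples ((m : ℤ) * g)).comap ψ
  have hA' : A'.index = m := by
    rw [AddSubgroup.index_comap, hg, ← AddSubgroup.zmultiples_eq_closure]
    have h1 : AddSubgroup.zmultiples ((m : ℤ) * g) ≤ AddSubgroup.zmultiples g :=
      AddSubgroup.zmultiples_le.2 ⟨m, by simp⟩
    have h2 := AddSubgroup.relIndex_mul_index h1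
    rw [Int.index_zmultiples, Int.index_zmultiples, Int.natAbs_mul, Int.natAbs_natCast] at h2
    exact Nat.eq_of_mul_eq_mul_right (Int.natAbs_pos.2 hg0) h2
  have hle : (thickened A hA m).toAddSubgroup.comap
      (algebraMap (NumberField.RingOfIntegers K) K).toAddMonoidHom ≤ A' := by
    intro x hx
    obtain ⟨a, ha, y, hy, hxy⟩ := hx
    have hy' : ψ ⟨y, hy⟩ ∈ ψ.range := ⟨_, rfl⟩
    rw [hg, AddSubgroup.mem_closure_singleton] at hy'
    obtain ⟨k, hk⟩ := hy'
    refine ⟨k, ?_⟩
    refine Int.cast_injective (α := ℚ) ?_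
    have hk' : (k : ℚ) * g = d * f y := by
      have := hψ₀ ⟨y, hy⟩
      change ((ψ ⟨y, hy⟩ : ℤ) : ℚ) = _ at this
      rw [← hk] at this
      push_cast [zsmul_eq_mul] at this
      exact this
    have hx' : (x : K) = a + (m : ℚ) • y := by
      rw [Algebra.smul_def]; simpa using hxy
    change _ = ((ψ₀ x : ℤ) : ℚ)
    rw [hψ₀ x, hx', map_add, map_smul, hfA a ha, smul_eq_mul]
    simp only [zsmul_eq_mul, Int.cast_mul, Int.cast_natCast, Int.cast_id]
    linear_combination (m : ℚ) * hk'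
  rw [orderIndex_eq_index]
  refine Nat.le_of_dvd (Nat.pos_of_ne_zero ?_) ((dvd_of_eq hA'.symm).trans (AddSubgroup.index_dvd_of_le hle))
  rw [← orderIndex_eq_index]
  exact thickened_index_ne_zero A hA m hm

/-- The unit ideal gives a point of the packet, so packets are nonempty. -/
lemma packetSet_nonempty {n : ℕ} (hn : 0 < n) (hK : Module.finrank ℚ K = n) (O : Subring K)
    (hO : IsOrder O) (σ : Fin n ≃ (K →+* ℝ)) : (packetSet O σ).Nonempty := by
  let R := NumberField.RingOfIntegers K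
  let N : Submodule ℤ R := AddSubgroup.toIntSubmodule
    (O.toAddSubgroup.comap (algebraMap R K).toAddMonoidHom)
  have hfin : N.toAddSubgroup.index ≠ 0 := by
    have := orderIndex_eq_index O ▸ hO.2
    exact this
  haveI : N.toAddSubgroup.FiniteIndex := ⟨hfin⟩
  let bN : Module.Basis (Fin n) ℤ N := Module.finBasisOfFinrankEq ℤ N
    ((AddSubgroup.finrank_eq_of_finiteIndex N.toAddSubgroup).trans
      ((NumberField.RingOfIntegers.rank K).trans hK))
  let y : Fin n → K := fun k => ((bN k : R) : K)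
  let M : Matrix (Fin n) (Fin n) ℝ := Matrix.of fun j k => σ j (y k)
  have hspan : ∀ x : K, x ∈ O ↔ ∃ z : Fin n → ℤ, x = ∑ k, (z k : K) * y k := by
    intro x
    constructor
    · intro hx
      let x' : N := ⟨⟨x, hO.1 x hx⟩, hx⟩
      refine ⟨fun k => bN.repr x' k, ?_⟩
      let φ : N →ₗ[ℤ] K := (Algebra.linearMap R K).restrictScalars ℤ ∘ₗ N.subtype
      calc x = φ x' := rfl
        _ = φ (∑ k, bN.repr x' k • bN k) := by rw [bN.sum_repr x']
        _ = ∑ k, φ (bN.repr x' k • bN k) := map_sum φ _ _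
        _ = _ := Finset.sum_congr rfl fun k _ => by
          rw [map_smul, zsmul_eq_mul]; rfl
    · rintro ⟨z, rfl⟩
      exact O.sum_mem fun k _ => O.mul_mem (intCast_mem O (z k)) (bN k).2
  have hdet : M.det ≠ 0 := by
    let e : Fin n ≃ (K →ₐ[ℚ] ℂ) := Equiv.ofBijective
      (fun j => ((algebraMap ℝ ℂ).comp (σ j)).toRatAlgHom) <| by
        refine (Fintype.bijective_iff_injective_and_card _).2 ⟨fun i j h => σ.injective ?_, ?_⟩
        · ext x
          simpa using AlgHom.congr_fun h x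
        · rw [Fintype.card_fin, AlgHom.card ℚ K ℂ, hK]
    have hind : LinearIndependent ℚ y := by
      rw [← LinearIndependent.iff_fractionRing ℤ ℚ]
      refine (bN.linearIndependent.map' ((Algebra.linearMap R K).restrictScalars ℤ ∘ₗ
        N.subtype) ?_)
      exact LinearMap.ker_eq_bot.2 fun u v h =>
        Subtype.ext (NumberField.RingOfIntegers.coe_injective h)
    let by' : Module.Basis (Fin n) ℚ K :=
      haveI : Nonempty (Fin n) := ⟨⟨0, hn⟩⟩
      basisOfLinearIndependentOfCardEqFinrank hind (by rw [Fintype.card_fin, hK])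
    have hdisc : algebraMap ℚ ℂ (Algebra.discr ℚ y) ≠ 0 := by
      have : (by' : Fin n → K) = y := by simp [by']
      rw [← this]
      simp [Algebra.discr_not_zero_of_basis ℚ by']
    rw [Algebra.discr_eq_det_embeddingsMatrixReindex_pow_two ℚ ℂ y e] at hdisc
    intro h
    apply hdisc
    have : (Algebra.embeddingsMatrixReindex ℚ ℂ y e).det =
        algebraMap ℝ ℂ Mᵀ.det := by
      rw [RingHom.map_det]
      rfl
    rw [this, det_transpose, h, map_zero, sq, mul_zero]
  let c : ℝ := |M.det|⁻¹ ^ ((1 : ℝ) / n)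
  have hc : 0 < c := Real.rpow_pos_of_pos (inv_pos.2 (abs_pos.2 hdet)) _
  let o : Fin n := ⟨0, hn⟩
  let w : Fin n → ℝ := fun j => if j = o then (if 0 < M.det then 1 else -1) else 1
  have hw : ∀ j, w j = 1 ∨ w j = -1 := fun j => by
    simp only [w]; split_ifs <;> simp
  have hdet1 : (diagonal (fun j => c * w j) * M).det = 1 := by
    rw [det_mul, det_diagonal, Finset.prod_mul_distrib, Finset.prod_const, Finset.card_univ,
      Fintype.card_fin, Finset.prod_eq_single o (fun j _ hj => by simp [w, hj]) (by simp)]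
    have hcn : c ^ n = |M.det|⁻¹ := by
      rw [← Real.rpow_natCast, ← Real.rpow_mul (inv_nonneg.2 (abs_nonneg _)),
        one_div_mul_cancel (by exact_mod_cast hn.ne'), Real.rpow_one]
    rw [hcn]
    simp only [w, if_true]
    by_cases h : 0 < M.det
    · rw [if_pos h, abs_of_pos h]; field_simp
    · rw [if_neg h, abs_of_neg (lt_of_le_of_ne (not_lt.1 h) hdet)]; field_simp
  let g : SpecialLinearGroup (Fin n) ℝ := ⟨_, hdet1⟩
  refine ⟨(g : LatticeSpace n), 1, ⟨?_, ?_, ?_, 1, one_mul 1⟩, c, w, 0, g, hc, hw, by simp, rfl, ?_⟩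
  · rw [Submodule.one_eq_span]; exact Submodule.fg_span_singleton _
  · intro h
    have : (1 : K) ∈ (1 : Submodule O K) := Submodule.mem_one.2 ⟨1, map_one _⟩
    rw [h] at this
    exact one_ne_zero (Submodule.mem_bot O |>.1 this)
  · intro α
    constructor
    · intro h
      obtain ⟨z, hz⟩ := Submodule.mem_one.1 (h 1 (Submodule.mem_one.2 ⟨1, map_one _⟩))
      rw [mul_one] at hz
      exact hz ▸ z.2
    · intro hα x hx
      obtain ⟨z, rfl⟩ := Submodule.mem_one.1 hx
      exact Submodule.mem_one.2 ⟨⟨α, hα⟩ * z, by rw [map_mul]; rfl⟩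
  · ext v
    simp only [latticeOf, Set.mem_setOf_eq]
    have key : ∀ z : Fin n → ℤ, g.1 *ᵥ (fun i => (z i : ℝ)) =
        fun j => c * (w j * Real.exp ((0 : Fin n → ℝ) j)) * σ j (∑ k, (z k : K) * y k) := by
      intro z
      ext j
      change ∑ k, (diagonal (fun j => c * w j) * M) j k * (z k : ℝ) = _
      simp only [Matrix.diagonal_mul, map_sum, map_mul, map_intCast, Finset.mul_sum,
        Pi.zero_apply, Real.exp_zero, mul_one]
      exact Finset.sum_congr rfl fun k _ => by simp only [M, Matrix.of_apply]; ring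
    constructor
    · rintro ⟨z, rfl⟩
      exact ⟨∑ k, (z k : K) * y k,
        Submodule.mem_one.2 ⟨⟨_, (hspan _).2 ⟨z, rfl⟩⟩, rfl⟩, fun j => congrFun (key z) j⟩
    · rintro ⟨x, hx, hv⟩
      obtain ⟨x', rfl⟩ := Submodule.mem_one.1 hx
      obtain ⟨z, hz⟩ := (hspan (x' : K)).1 x'.2
      refine ⟨z, funext fun j => ?_⟩
      rw [hv j, key z, ← hz]
      rfl

end Vale.Agent.P007
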